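import Vale.Agent.P167.K8.Defs
import Vale.Agent.P167.H685.Sid

/-!
# P167, block GQ8: positivity, finite energy and even translations on the torus
-/

namespace Vale.Agent.P167.K8

open Finset Filter Topology
open Vale.Agent.P152 (Edge Ori vw wt unroll)
open Vale.Agent.P167.A (Grid plane torus red redE plane_nx plane_hd plane_sg par_red e1_red e2_red
  e1s_red e2s_red nx_red)
open Vale.Agent.P167.H685 (orbs orb unR fs pa bs sgb s_turn s_turn0 turn_cases shift orbs_conj
  mem_orb_iff mem_orbs eq_orb_of_mem orb_mem_orbs orbs_disjoint self_mem_orb nonempty_of_mem_orbs)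

/-- The factor of an orbit. -/
noncomputable def fc (θ : ℝ) {V : Type} (g : Grid V) (a : Edge V → ℝ) (ρ : V → Bool)
    (O : Finset (Edge V)) : ℝ :=
  2 * Real.cos (∑ e ∈ O, (θ / 4 * g.turn ρ e + a e * g.sg e))

theorem fc_zero (θ : ℝ) {V : Type} (g : Grid V) (ρ : V → Bool) (O : Finset (Edge V)) :
    fc θ g 0 ρ O = 2 * Real.cos (θ / 4 * ((∑ e ∈ O, g.turn ρ e : ℤ) : ℝ)) := by
  unfold fc
  congr 2
  rw [Int.cast_sum, mul_sum]
  refine sum_congr rfl fun e _ => by simp

variable {θ : ℝ} {M L : ℕ} [NeZero M] [NeZero L]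

theorem Wa_even (θ : ℝ) (hM : Even M) (hL : Even L) (a : Edge (ZMod M × ZMod L) → ℝ)
    (ρ : ZMod M × ZMod L → Bool) :
    Wa θ M L a ρ = ∏ O ∈ orbs ((torus M L hM hL).nxP ρ), fc θ (torus M L hM hL) a ρ O := by
  unfold Wa
  rw [dif_pos ⟨hM, hL⟩]
  rfl

theorem wT_even (θ : ℝ) (hM : Even M) (hL : Even L) (ρ : ZMod M × ZMod L → Bool) :
    wT θ M L ρ = ∏ O ∈ orbs ((torus M L hM hL).nxP ρ), fc θ (torus M L hM hL) 0 ρ O :=
  Wa_even θ hM hL 0 ρ

theorem wT_odd (θ : ℝ) (h : ¬ (Even M ∧ Even L)) (ρ : ZMod M × ZMod L → Bool) :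
    wT θ M L ρ = 1 := by
  unfold wT Wa
  rw [dif_neg h]

theorem cos4 (θ : ℝ) : Real.cos (θ / 4 * ((4 : ℤ) : ℝ)) = Real.cos θ := by
  congr 1
  push_cast
  ring

theorem cosm4 (θ : ℝ) : Real.cos (θ / 4 * ((-4 : ℤ) : ℝ)) = Real.cos θ := by
  rw [← Real.cos_neg]
  congr 1
  push_cast
  ring

/-- The factor of an orbit is `2 cos θ` or `2`. -/
theorem fc_cases (θ : ℝ) (hM : Even M) (hL : Even L) (ρ : ZMod M × ZMod L → Bool)
    {O : Finset (Edge (ZMod M × ZMod L))} (hO : O ∈ orbs ((torus M L hM hL).nxP ρ)) :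
    fc θ (torus M L hM hL) 0 ρ O = 2 * Real.cos θ ∨ fc θ (torus M L hM hL) 0 ρ O = 2 := by
  rw [fc_zero]
  rcases turn_cases hM hL s_turn s_turn0 ρ hO with (h | h) | h
  · left
    rw [h, cos4]
  · left
    rw [h, cosm4]
  · right
    rw [h.1]
    simp

theorem fc_pos (h0 : 0 ≤ θ) (h1 : θ < Real.pi / 2) (hM : Even M) (hL : Even L)
    (ρ : ZMod M × ZMod L → Bool) {O : Finset (Edge (ZMod M × ZMod L))}
    (hO : O ∈ orbs ((torus M L hM hL).nxP ρ)) : 0 < fc θ (torus M L hM hL) 0 ρ O := by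
  rcases fc_cases θ hM hL ρ hO with h | h
  · rw [h]
    have := Real.cos_pos_of_mem_Ioo ⟨by linarith, h1⟩
    linarith
  · rw [h]
    norm_num

/-- K.1: positivity. -/
theorem k_pos : K_pos := by
  intro θ h0 h1 M L _ _ ρ
  by_cases h : Even M ∧ Even L
  · rw [wT_even θ h.1 h.2]
    exact prod_pos fun O hO => fc_pos h0 h1 h.1 h.2 ρ hO
  · rw [wT_odd θ h]
    exact one_pos

theorem one_le_two_cos (h0 : 0 ≤ θ) (h1 : θ ≤ Real.pi / 3) : 1 ≤ 2 * Real.cos θ := by
  have h2 : Real.cos (Real.pi / 3) ≤ Real.cos θ :=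
    Real.cos_le_cos_of_nonneg_of_le_pi h0 (by linarith [Real.pi_pos]) h1
  rw [Real.cos_pi_div_three] at h2
  linarith

theorem one_le_fc (h0 : 0 ≤ θ) (h1 : θ ≤ Real.pi / 3) (hM : Even M) (hL : Even L)
    (ρ : ZMod M × ZMod L → Bool) {O : Finset (Edge (ZMod M × ZMod L))}
    (hO : O ∈ orbs ((torus M L hM hL).nxP ρ)) : 1 ≤ fc θ (torus M L hM hL) 0 ρ O := by
  rcases fc_cases θ hM hL ρ hO with h | h
  · rw [h]
    exact one_le_two_cos h0 h1
  · rw [h]
    norm_num

theorem fc_le_two (θ : ℝ) {V : Type} (g : Grid V) (a : Edge V → ℝ) (ρ : V → Bool)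
    (O : Finset (Edge V)) : fc θ g a ρ O ≤ 2 := by
  unfold fc
  linarith [Real.cos_le_one (∑ e ∈ O, (θ / 4 * g.turn ρ e + a e * g.sg e))]

/-- The next edge depends only on the square at the head. -/
theorem nx_congr_grid {V : Type} (g : Grid V) {ρ ρ' : V → Bool} {e : Edge V}
    (h : ρ (g.hd e) = ρ' (g.hd e)) : g.nx ρ e = g.nx ρ' e := by
  rcases e with v | v
  · simp only [Grid.hd] at h
    simp only [Grid.nx]
    split_ifs at h ⊢ <;> simp_all
  · simp only [Grid.hd] at h
    simp only [Grid.nx]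
    split_ifs at h ⊢ <;> simp_all

theorem turn_congr_grid {V : Type} (g : Grid V) {ρ ρ' : V → Bool} {e : Edge V}
    (h : ρ (g.hd e) = ρ' (g.hd e)) : g.turn ρ e = g.turn ρ' e := by
  unfold Grid.turn
  rw [h]

/-- Iterates from an edge whose orbit only sees squares where the configurations agree. -/
theorem iter_congr {V : Type} (g : Grid V) {ρ ρ' : V → Bool} {e : Edge V}
    (h : ∀ n : ℕ, ρ (g.hd ((g.nx ρ)^[n] e)) = ρ' (g.hd ((g.nx ρ)^[n] e))) (n : ℕ) :
    (g.nx ρ)^[n] e = (g.nx ρ')^[n] e := by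
  induction n with
  | zero => rfl
  | succ n ih =>
    rw [Function.iterate_succ_apply', Function.iterate_succ_apply', ← ih]
    exact nx_congr_grid g (h n)

/-- Orbits of the torus which see only squares where the configurations agree. -/
theorem orbs_congr (hM : Even M) (hL : Even L) {ρ ρ' : ZMod M × ZMod L → Bool}
    {A : Finset (ZMod M × ZMod L)} (h : ∀ v, v ∉ A → ρ v = ρ' v) :
    (orbs ((torus M L hM hL).nxP ρ)).filter (fun O => ∀ e ∈ O, (torus M L hM hL).hd e ∉ A) =
    (orbs ((torus M L hM hL).nxP ρ')).filter (fun O => ∀ e ∈ O, (torus M L hM hL).hd e ∉ A) := by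
  have key : ∀ ρ ρ' : ZMod M × ZMod L → Bool, (∀ v, v ∉ A → ρ v = ρ' v) →
      (orbs ((torus M L hM hL).nxP ρ)).filter (fun O => ∀ e ∈ O, (torus M L hM hL).hd e ∉ A) ⊆
      (orbs ((torus M L hM hL).nxP ρ')).filter
        (fun O => ∀ e ∈ O, (torus M L hM hL).hd e ∉ A) := by
    intro ρ ρ' h O hO
    rw [mem_filter] at hO ⊢
    refine ⟨?_, hO.2⟩
    obtain ⟨x, rfl⟩ := mem_orbs.1 hO.1
    have h1 : ∀ n : ℕ, ρ ((torus M L hM hL).hd (((torus M L hM hL).nx ρ)^[n] x)) =
        ρ' ((torus M L hM hL).hd (((torus M L hM hL).nx ρ)^[n] x)) := fun n =>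
      h _ (hO.2 _ ((mem_orb_iff hM hL ρ _ _).2 ⟨n, rfl⟩))
    have h2 : orb ((torus M L hM hL).nxP ρ) x = orb ((torus M L hM hL).nxP ρ') x := by
      ext y
      rw [mem_orb_iff, mem_orb_iff]
      constructor
      · rintro ⟨n, rfl⟩
        exact ⟨n, (iter_congr _ h1 n).symm⟩
      · rintro ⟨n, rfl⟩
        exact ⟨n, iter_congr _ h1 n⟩
    rw [h2]
    exact orb_mem_orbs _
  exact (key ρ ρ' h).antisymm (key ρ' ρ fun v hv => (h v hv).symm)

theorem fc_congr (θ : ℝ) {V : Type} (g : Grid V) {a : Edge V → ℝ} {ρ ρ' : V → Bool}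
    {O : Finset (Edge V)} (h : ∀ e ∈ O, ρ (g.hd e) = ρ' (g.hd e)) :
    fc θ g a ρ O = fc θ g a ρ' O := by
  unfold fc
  congr 2
  exact sum_congr rfl fun e he => by rw [turn_congr_grid g (h e he)]

/-- The two edges with head `v`. -/
theorem exists_two_heads {V : Type} [Fintype V] [DecidableEq V] (g : Grid V) (v : V) :
    ∃ x y : Edge V, ∀ e, g.hd e = v → e = x ∨ e = y := by
  cases hp : g.par v with
  | true =>
    refine ⟨Sum.inr v, Sum.inr (g.e2.symm v), fun e he => ?_⟩
    rcases e with w | w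
    · simp only [Grid.hd] at he
      split_ifs at he with h
      · subst he
        rw [g.p1, h] at hp
        simp at hp
      · subst he
        exact absurd hp h
    · simp only [Grid.hd] at he
      split_ifs at he with h
      · subst he
        exact Or.inl rfl
      · subst he
        right
        simp
  | false =>
    refine ⟨Sum.inl v, Sum.inl (g.e1.symm v), fun e he => ?_⟩
    rcases e with w | w
    · simp only [Grid.hd] at he
      split_ifs at he with h
      · subst he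
        right
        simp
      · subst he
        exact Or.inl rfl
    · simp only [Grid.hd] at he
      split_ifs at he with h
      · subst he
        rw [hp] at h
        exact absurd h (by simp)
      · subst he
        rw [g.p2] at hp
        simp only [Bool.not_eq_false'] at hp
        exact absurd hp h

end Vale.Agent.P167.K8
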