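import Vale.Agent.P167.K8.H259.Bas

/-!
# P167, block GQ8: finite energy and even translations on the torus
-/

set_option linter.unusedSimpArgs false

namespace Vale.Agent.P167.K8

open Finset Filter Topology
open Vale.Agent.P152 (Edge Ori vw wt unroll)
open Vale.Agent.P167.A (Grid plane torus red redE plane_nx plane_hd plane_sg par_red e1_red e2_red
  e1s_red e2s_red nx_red)
open Vale.Agent.P167.H685 (orbs orb unR fs pa bs sgb s_turn s_turn0 turn_cases shift orbs_conj
  mem_orb_iff mem_orbs eq_orb_of_mem orb_mem_orbs orbs_disjoint self_mem_orb nonempty_of_mem_orbs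
  card_orbs_meet_le)

variable {θ : ℝ} {M L : ℕ} [NeZero M] [NeZero L]

/-- The number of the orbits which see a given square is at most two. -/
theorem card_orbs_at (hM : Even M) (hL : Even L) (ρ : ZMod M × ZMod L → Bool)
    (v : ZMod M × ZMod L) :
    ((orbs ((torus M L hM hL).nxP ρ)).filter
      (fun O => ¬ ∀ e ∈ O, (torus M L hM hL).hd e ∉ ({v} : Finset _))).card ≤ 2 := by
  obtain ⟨x, y, hxy⟩ := exists_two_heads (torus M L hM hL) v
  refine (card_le_card ?_).trans ((card_orbs_meet_le (σ := (torus M L hM hL).nxP ρ)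
    ({x, y} : Finset _)).trans card_le_two)
  intro O hO
  rw [mem_filter] at hO ⊢
  refine ⟨hO.1, ?_⟩
  obtain ⟨_, h⟩ := hO
  push Not at h
  obtain ⟨e, he, hv⟩ := h
  rw [mem_singleton] at hv
  refine ⟨e, ?_, he⟩
  rw [mem_insert, mem_singleton]
  exact hxy e hv

/-- K.2: finite energy. -/
theorem k_flip : K_flip := by
  intro θ h0 h1 M L _ _ ρ v b
  by_cases h : Even M ∧ Even L
  · obtain ⟨hM, hL⟩ := h
    rw [wT_even θ hM hL, wT_even θ hM hL]
    have hag : ∀ u, u ∉ ({v} : Finset (ZMod M × ZMod L)) → Function.update ρ v b u = ρ u := by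
      intro u hu
      rw [mem_singleton] at hu
      exact Function.update_of_ne hu _ _
    have hN := orbs_congr hM hL (A := {v}) hag
    rw [← prod_filter_mul_prod_filter_not (orbs ((torus M L hM hL).nxP (Function.update ρ v b)))
      (fun O => ∀ e ∈ O, (torus M L hM hL).hd e ∉ ({v} : Finset _)),
      ← prod_filter_mul_prod_filter_not (orbs ((torus M L hM hL).nxP ρ))
      (fun O => ∀ e ∈ O, (torus M L hM hL).hd e ∉ ({v} : Finset _)), hN]
    have e1 : ∏ O ∈ (orbs ((torus M L hM hL).nxP ρ)).filter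
          (fun O => ∀ e ∈ O, (torus M L hM hL).hd e ∉ ({v} : Finset _)),
          fc θ (torus M L hM hL) 0 (Function.update ρ v b) O =
        ∏ O ∈ (orbs ((torus M L hM hL).nxP ρ)).filter
          (fun O => ∀ e ∈ O, (torus M L hM hL).hd e ∉ ({v} : Finset _)),
          fc θ (torus M L hM hL) 0 ρ O := by
      refine prod_congr rfl fun O hO => fc_congr θ _ fun e he => ?_
      exact hag _ ((mem_filter.1 hO).2 e he)
    rw [e1]
    have hpi := Real.pi_pos
    have hpos : 0 ≤ ∏ O ∈ (orbs ((torus M L hM hL).nxP ρ)).filter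
          (fun O => ∀ e ∈ O, (torus M L hM hL).hd e ∉ ({v} : Finset _)),
          fc θ (torus M L hM hL) 0 ρ O :=
      prod_nonneg fun O hO => (fc_pos h0 (by linarith) hM hL ρ (mem_filter.1 hO).1).le
    have hup : ∏ O ∈ (orbs ((torus M L hM hL).nxP (Function.update ρ v b))).filter
          (fun O => ¬ ∀ e ∈ O, (torus M L hM hL).hd e ∉ ({v} : Finset _)),
          fc θ (torus M L hM hL) 0 (Function.update ρ v b) O ≤ 4 := by
      calc _ ≤ ∏ O ∈ (orbs ((torus M L hM hL).nxP (Function.update ρ v b))).filter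
            (fun O => ¬ ∀ e ∈ O, (torus M L hM hL).hd e ∉ ({v} : Finset _)), (2 : ℝ) :=
            prod_le_prod (fun O hO => (fc_pos h0 (by linarith) hM hL _ (mem_filter.1 hO).1).le)
              fun O _ => fc_le_two θ _ _ _ _
        _ = 2 ^ _ := prod_const _
        _ ≤ 2 ^ 2 := pow_le_pow_right₀ (by norm_num) (card_orbs_at hM hL _ v)
        _ = 4 := by norm_num
    have hlo : 1 ≤ ∏ O ∈ (orbs ((torus M L hM hL).nxP ρ)).filter
          (fun O => ¬ ∀ e ∈ O, (torus M L hM hL).hd e ∉ ({v} : Finset _)),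
          fc θ (torus M L hM hL) 0 ρ O := by
      calc (1 : ℝ) = ∏ O ∈ (orbs ((torus M L hM hL).nxP ρ)).filter
            (fun O => ¬ ∀ e ∈ O, (torus M L hM hL).hd e ∉ ({v} : Finset _)), (1 : ℝ) := by
            rw [prod_const_one]
        _ ≤ _ := prod_le_prod (fun _ _ => zero_le_one)
            fun O hO => one_le_fc h0 h1 hM hL ρ (mem_filter.1 hO).1
    calc _ ≤ (∏ O ∈ (orbs ((torus M L hM hL).nxP ρ)).filter
          (fun O => ∀ e ∈ O, (torus M L hM hL).hd e ∉ ({v} : Finset _)),
          fc θ (torus M L hM hL) 0 ρ O) * 4 := mul_le_mul_of_nonneg_left hup hpos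
      _ = 4 * ((∏ O ∈ (orbs ((torus M L hM hL).nxP ρ)).filter
          (fun O => ∀ e ∈ O, (torus M L hM hL).hd e ∉ ({v} : Finset _)),
          fc θ (torus M L hM hL) 0 ρ O) * 1) := by ring
      _ ≤ _ := mul_le_mul_of_nonneg_left (mul_le_mul_of_nonneg_left hlo hpos) (by norm_num)
  · rw [wT_odd θ h, wT_odd θ h]
    norm_num

/-- Even translations. -/
theorem wT_shift (θ : ℝ) (x y : ℤ) (ρ : ZMod M × ZMod L → Bool) :
    wT θ M L (shift (((2 * x : ℤ) : ZMod M), ((2 * y : ℤ) : ZMod L)) ρ) = wT θ M L ρ := by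
  classical
  by_cases h : Even M ∧ Even L
  swap
  · rw [wT_odd θ h, wT_odd θ h]
  obtain ⟨hM, hL⟩ := h
  rw [wT_even θ hM hL, wT_even θ hM hL]
  set gT := torus M L hM hL with hgT
  set a : ZMod M × ZMod L := (((2 * x : ℤ) : ZMod M), ((2 * y : ℤ) : ZMod L)) with ha
  set φ : Equiv.Perm (ZMod M × ZMod L) := Equiv.addRight a with hφ
  have c1 : ∀ v, gT.e1 (φ v) = φ (gT.e1 v) := by
    intro v
    apply Prod.ext
    · simp [hgT, torus, hφ, ha]; ring
    · simp [hgT, torus, hφ, ha]
  have c2 : ∀ v, gT.e2 (φ v) = φ (gT.e2 v) := by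
    intro v
    apply Prod.ext
    · simp [hgT, torus, hφ, ha]
    · simp [hgT, torus, hφ, ha]; ring
  have c1s : ∀ v, gT.e1.symm (φ v) = φ (gT.e1.symm v) := by
    intro v
    rw [Equiv.symm_apply_eq, c1, Equiv.apply_symm_apply]
  have c2s : ∀ v, gT.e2.symm (φ v) = φ (gT.e2.symm v) := by
    intro v
    rw [Equiv.symm_apply_eq, c2, Equiv.apply_symm_apply]
  have cp : ∀ v, gT.par (φ v) = gT.par v := by
    intro v
    obtain ⟨p, hp⟩ := ZMod.intCast_surjective v.1
    obtain ⟨q, hq⟩ := ZMod.intCast_surjective v.2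
    have hv : v = red M L (p, q) := Prod.ext hp.symm hq.symm
    have hv2 : φ v = red M L (p + 2 * x, q + 2 * y) := by
      rw [hv]
      simp [hφ, ha, red]
    rw [hv2, hv, par_red, par_red]
    have : Even (p + 2 * x + (q + 2 * y)) ↔ Even (p + q) := by
      rw [show p + 2 * x + (q + 2 * y) = p + q + 2 * (x + y) by ring, Int.even_add]
      simp
    simp [plane, this]
  set φE : Equiv.Perm (Edge (ZMod M × ZMod L)) := Equiv.sumCongr φ φ with hφE
  have hsh : shift a ρ = ρ ∘ φ := rfl
  have hnx : ∀ e, φE (gT.nxP (ρ ∘ φ) e) = gT.nxP ρ (φE e) := by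
    intro e
    rcases e with v | v
    · simp only [hφE, Grid.nxP_apply, Equiv.sumCongr_apply, Sum.map_inl, Grid.nx, cp, c1, c2, c1s,
        c2s, Function.comp_apply]
      split_ifs <;> rfl
    · simp only [hφE, Grid.nxP_apply, Equiv.sumCongr_apply, Sum.map_inr, Grid.nx, cp, c1, c2, c1s,
        c2s, Function.comp_apply]
      split_ifs <;> rfl
  have hhd : ∀ e, gT.hd (φE e) = φ (gT.hd e) := by
    intro e
    rcases e with v | v
    · simp only [hφE, Equiv.sumCongr_apply, Sum.map_inl, Grid.hd, cp, c1]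
      split_ifs <;> rfl
    · simp only [hφE, Equiv.sumCongr_apply, Sum.map_inr, Grid.hd, cp, c2]
      split_ifs <;> rfl
  have hturn : ∀ e, gT.turn ρ (φE e) = gT.turn (ρ ∘ φ) e := by
    intro e
    unfold Grid.turn
    rw [hhd]
    rfl
  rw [hsh, orbs_conj φE hnx, prod_image (fun _ _ _ _ h => Finset.map_injective _ h)]
  refine prod_congr rfl fun ℓ _ => ?_
  rw [fc_zero, fc_zero, sum_map]
  congr 4
  exact sum_congr rfl fun e _ => (hturn e).symm

/-- Shift as a permutation of the configurations. -/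
def shiftEquiv (a : ZMod M × ZMod L) :
    (ZMod M × ZMod L → Bool) ≃ (ZMod M × ZMod L → Bool) where
  toFun := shift a
  invFun := shift (-a)
  left_inv ρ := by
    funext v
    simp [shift]
  right_inv ρ := by
    funext v
    simp [shift]

/-- K.3: even translations. -/
theorem k_shift : K_shift := by
  intro θ M L _ _ F x y
  unfold ET
  congr 1
  set a : ZMod M × ZMod L := (((2 * x : ℤ) : ZMod M), ((2 * y : ℤ) : ZMod L)) with ha
  rw [← Equiv.sum_comp (shiftEquiv a) (fun ρ => wT θ M L ρ * F (unR ρ))]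
  refine sum_congr rfl fun ρ _ => ?_
  have h1 : wT θ M L (shiftEquiv a ρ) = wT θ M L ρ := wT_shift θ x y ρ
  have h2 : unR (shiftEquiv a ρ) = fun v => unR ρ (v.1 + 2 * x, v.2 + 2 * y) := by
    funext v
    show ρ (_ + a) = ρ _
    congr 1
    simp [ha]
  rw [h1, h2]

end Vale.Agent.P167.K8
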