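import Vale.Agent.P167.K8.H259.Bas
import Vale.Agent.P167.FK.Flip

/-!
# P167, block GQ8: inner clusters (deterministic facts in the plane)
-/

set_option linter.unusedSimpArgs false

namespace Vale.Agent.P167.K8

open Finset Filter Topology
open Vale.Agent.P145.FB (PStep PConn)
open Vale.Agent.P167.FK (Ex Pr Bq eta0 eta1 PC DC cf Good LD ia ib)

variable {B : Finset (ℤ × ℤ)} {ω ω' : Cfg}

open Classical in
/-- The squares whose two primal corners are in inner clusters. -/
noncomputable def Dp (B : Finset (ℤ × ℤ)) (ω : Cfg) : Finset (ℤ × ℤ) :=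
  B.filter fun v => Inn B ω (FK.pa v) ∧ Inn B ω (FK.pb v)

theorem mem_Dp {v : ℤ × ℤ} : v ∈ Dp B ω ↔ v ∈ B ∧ Inn B ω (FK.pa v) ∧ Inn B ω (FK.pb v) := by
  classical
  unfold Dp
  exact mem_filter

theorem fin_true {v : ℤ × ℤ} : fin B ω v = true ↔ v ∈ B ∧ ω v = true ∧ Inn B ω (FK.pa v) := by
  classical
  unfold fin
  exact decide_eq_true_iff

theorem fin_false {v : ℤ × ℤ} : fin B ω v = false ↔ ¬ (v ∈ B ∧ ω v = true ∧ Inn B ω (FK.pa v)) := by
  classical
  unfold fin
  exact decide_eq_false_iff_not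

theorem Dp_sub : Dp B ω ⊆ B := fun _ hv => (mem_Dp.1 hv).1

theorem Inn.of_PC {s t : ℤ × ℤ} (h : Inn B ω s) (hst : PC ω s t) : Inn B ω t :=
  fun u hu v hv => h u (Relation.ReflTransGen.trans hst hu) v hv

theorem PC_symm {s t : ℤ × ℤ} (h : PC ω s t) : PC ω t s := by
  unfold PC at h ⊢
  induction h with
  | refl => exact Relation.ReflTransGen.refl
  | tail _ hs ih => exact Relation.ReflTransGen.head hs.symm ih

/-- The square of a primal step. -/
theorem step_sq {F : Set (ℤ × ℤ)} {s t : ℤ × ℤ} (h : PStep F s t) (hs : Even (s.1 + s.2)) :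
    (FK.pa (min s.1 t.1, min s.2 t.2) = s ∧ FK.pb (min s.1 t.1, min s.2 t.2) = t) ∨
    (FK.pa (min s.1 t.1, min s.2 t.2) = t ∧ FK.pb (min s.1 t.1, min s.2 t.2) = s) := by
  obtain ⟨x, y⟩ := s
  obtain ⟨x', y'⟩ := t
  obtain ⟨h1, h2, _⟩ := h
  simp only at h1 h2 hs
  obtain ⟨k, hk⟩ := hs
  rcases h1 with h1 | h1 <;> rcases h2 with h2 | h2 <;> subst h1 <;> subst h2
  · left
    have e1 : min x (x + 1) = x := by omega
    have e2 : min y (y + 1) = y := by omega
    have e3 : Even (x + y) := ⟨k, hk⟩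
    simp [FK.pa, FK.pb, e1, e2, e3]
  · left
    have e1 : min x (x + 1) = x := by omega
    have e2 : min y (y - 1) = y - 1 := by omega
    have e3 : ¬ Even (x + (y - 1)) := by
      rw [Int.not_even_iff_odd]; exact ⟨k - 1, by omega⟩
    simp [FK.pa, FK.pb, e1, e2, e3]
  · right
    have e1 : min x (x - 1) = x - 1 := by omega
    have e2 : min y (y + 1) = y := by omega
    have e3 : ¬ Even (x - 1 + y) := by
      rw [Int.not_even_iff_odd]; exact ⟨k - 1, by omega⟩
    simp [FK.pa, FK.pb, e1, e2, e3]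
  · right
    have e1 : min x (x - 1) = x - 1 := by omega
    have e2 : min y (y - 1) = y - 1 := by omega
    have e3 : Even (x - 1 + (y - 1)) := ⟨k - 1, by omega⟩
    simp [FK.pa, FK.pb, e1, e2, e3]

theorem even_pa (v : ℤ × ℤ) : Even ((FK.pa v).1 + (FK.pa v).2) := by
  rw [← FK.ls_ia]
  exact FK.even_ls _

theorem even_pb (v : ℤ × ℤ) : Even ((FK.pb v).1 + (FK.pb v).2) := by
  rw [← FK.ls_ib]
  exact FK.even_ls _

/-- The inner sites do not depend on the squares between inner sites. -/
theorem inn_iff (h : ∀ v ∈ B, v ∉ Dp B ω → ω' v = ω v) {s : ℤ × ℤ} (hs : Even (s.1 + s.2)) :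
    Inn B ω' s ↔ Inn B ω s := by
  constructor
  · intro hi
    by_contra hn
    have key : ∀ t, PC ω s t → PC ω' s t ∧ Even (t.1 + t.2) := by
      intro t ht
      unfold PC at ht
      induction ht with
      | refl => exact ⟨Relation.ReflTransGen.refl, hs⟩
      | @tail t t' ht hst ih =>
        obtain ⟨ih1, ih2⟩ := ih
        refine ⟨?_, FK.even_step hst ih2⟩
        set u : ℤ × ℤ := (min t.1 t'.1, min t.2 t'.2) with hu
        have hsq := step_sq hst ih2
        rw [← hu] at hsq
        have huB : u ∈ B := by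
          refine hi t ih1 u ?_
          rcases hsq with h1 | h1
          · exact Or.inl h1.1
          · exact Or.inr h1.2
        by_cases hD : u ∈ Dp B ω
        · exfalso
          have hti : Inn B ω t := by
            rcases hsq with h1 | h1
            · rw [← h1.1]; exact (mem_Dp.1 hD).2.1
            · rw [← h1.2]; exact (mem_Dp.1 hD).2.2
          exact hn (hti.of_PC (PC_symm ht))
        · have h2 := h u huB hD
          refine ih1.tail ⟨hst.1, hst.2.1, ?_⟩
          show ω' u = true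
          rw [h2]
          exact hst.2.2
    apply hn
    intro t ht v hv
    exact hi t (key t ht).1 v hv
  · intro hi
    have key : ∀ t, PC ω' s t → Inn B ω t ∧ Even (t.1 + t.2) := by
      intro t ht
      unfold PC at ht
      induction ht with
      | refl => exact ⟨hi, hs⟩
      | @tail t t' ht hst ih =>
        obtain ⟨ih1, ih2⟩ := ih
        refine ⟨?_, FK.even_step hst ih2⟩
        set u : ℤ × ℤ := (min t.1 t'.1, min t.2 t'.2) with hu
        have hsq := step_sq hst ih2
        rw [← hu] at hsq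
        have huB : u ∈ B := by
          refine ih1 t Relation.ReflTransGen.refl u ?_
          rcases hsq with h1 | h1
          · exact Or.inl h1.1
          · exact Or.inr h1.2
        by_cases hD : u ∈ Dp B ω
        · rcases hsq with h1 | h1
          · rw [← h1.2]; exact (mem_Dp.1 hD).2.2
          · rw [← h1.1]; exact (mem_Dp.1 hD).2.1
        · have h2 := h u huB hD
          refine ih1.of_PC (Relation.ReflTransGen.single ⟨hst.1, hst.2.1, ?_⟩)
          show ω u = true
          rw [← h2]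
          exact hst.2.2
    intro t ht v hv
    exact (key t ht).1 t Relation.ReflTransGen.refl v hv

theorem Dp_eq (h : ∀ v ∈ B, v ∉ Dp B ω → ω' v = ω v) : Dp B ω' = Dp B ω := by
  ext v
  rw [mem_Dp, mem_Dp, inn_iff h (even_pa v), inn_iff h (even_pb v)]

theorem inn_pb_of_open {v : ℤ × ℤ} (h : ω v = true) (hi : Inn B ω (FK.pa v)) :
    Inn B ω (FK.pb v) :=
  hi.of_PC (Relation.ReflTransGen.single (FK.step_ab h))

theorem inn_pa_of_open {v : ℤ × ℤ} (h : ω v = true) (hi : Inn B ω (FK.pb v)) :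
    Inn B ω (FK.pa v) :=
  hi.of_PC (Relation.ReflTransGen.single (FK.step_ab h).symm)

/-- The configuration of the inner clusters as a configuration in the domain `Dp`. -/
theorem fin_eq {S : Finset (ℤ × ℤ)} (hS : ∀ v ∈ Dp B ω, (ω v = true ↔ v ∈ S)) :
    fin B ω = cf (Dp B ω) eta0 S := by
  funext v
  unfold cf
  by_cases hD : v ∈ Dp B ω
  · rw [if_pos hD]
    have h1 := mem_Dp.1 hD
    by_cases hv : v ∈ S
    · rw [decide_eq_true hv, fin_true]
      exact ⟨h1.1, (hS v hD).2 hv, h1.2.1⟩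
    · rw [decide_eq_false hv, fin_false]
      exact fun h => hv ((hS v hD).1 h.2.1)
  · rw [if_neg hD]
    show _ = false
    rw [fin_false]
    rintro ⟨h1, h2, h3⟩
    exact hD (mem_Dp.2 ⟨h1, h3, inn_pb_of_open h2 h3⟩)

theorem fin_good (B : Finset (ℤ × ℤ)) (ω : Cfg) : Good (fin B ω) := by
  classical
  rw [fin_eq (S := (Dp B ω).filter fun v => ω v = true) fun v hv => by simp [hv]]
  exact FK.f_good.1 _ _ _ FK.f_good.2.1

/-- An edge next to an inner cluster. -/
theorem inn_edge {e : Ed} (h : Inn B ω (ls e)) :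
    hdv e ∈ B ∧ fin B ω (hdv e) = ω (hdv e) ∧ Inn B ω (ls (nx ω e)) := by
  set v := hdv e with hv
  have h1 : ls e = FK.pa v ∨ ls e = FK.pb v := by
    rcases FK.eq_of_hdv hv.symm with he | he
    · left; rw [he, FK.ls_ia]
    · right; rw [he, FK.ls_ib]
  have hB : v ∈ B := by
    refine h (ls e) Relation.ReflTransGen.refl v ?_
    rcases h1 with h1 | h1
    · exact Or.inl h1.symm
    · exact Or.inr h1.symm
  refine ⟨hB, ?_, ?_⟩
  · cases hω : ω v with
    | false =>
      rw [fin_false]
      rintro ⟨_, h2, _⟩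
      rw [hω] at h2
      exact absurd h2 (by simp)
    | true =>
      rw [fin_true]
      refine ⟨hB, hω, ?_⟩
      rcases h1 with h1 | h1
      · rw [← h1]; exact h
      · rw [h1] at h
        exact inn_pa_of_open hω h
  · rcases FK.ls_nx_step ω e with h2 | h2
    · rw [h2]; exact h
    · exact h.of_PC (Relation.ReflTransGen.single h2)

theorem inn_iter {e : Ed} (h : Inn B ω (ls e)) (n : ℕ) :
    (nx (fin B ω))^[n] e = (nx ω)^[n] e ∧ Inn B ω (ls ((nx ω)^[n] e)) := by
  induction n with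
  | zero => exact ⟨rfl, h⟩
  | succ n ih =>
    have h1 := inn_edge ih.2
    rw [Function.iterate_succ_apply', Function.iterate_succ_apply', ih.1]
    exact ⟨nx_congr h1.2.1, h1.2.2⟩

/-- The loops next to the inner clusters. -/
theorem inn_loop {ℓ : Finset Ed} (hl : IsLoop (fin B ω) ℓ) {e : Ed} (he : e ∈ ℓ)
    (h : Inn B ω (ls e)) :
    IsLoop ω ℓ ∧ (∀ e' ∈ ℓ, Inn B ω (ls e')) ∧ vs ℓ ⊆ B := by
  have h1 : ∀ e' ∈ ℓ, Inn B ω (ls e') := by
    intro e' he'
    obtain ⟨n, rfl⟩ := (H685.loop_gen hl he e').1 he'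
    rw [(inn_iter h n).1]
    exact (inn_iter h n).2
  refine ⟨?_, h1, ?_⟩
  · refine H685.loop_loc hl fun v hv => ?_
    obtain ⟨e', he', rfl⟩ := mem_image.1 hv
    exact (inn_edge (h1 e' he')).2.1
  · intro v hv
    obtain ⟨e', he', rfl⟩ := mem_image.1 hv
    exact (inn_edge (h1 e' he')).1

theorem inn_of_hdv {e : Ed} (h : hdv e ∈ Dp B ω) : Inn B ω (ls e) := by
  have h1 := mem_Dp.1 h
  rcases FK.eq_of_hdv (rfl : hdv e = hdv e) with he | he
  · rw [he, FK.ls_ia]; exact h1.2.1
  · rw [he, FK.ls_ib]; exact h1.2.2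

end Vale.Agent.P167.K8
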