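import Vale.Agent.P167.K8.H259.Inner
import Vale.Agent.P167.K8.H259.Flip

/-!
# P167, block GQ8: on the torus the inner clusters follow a mixture of free measures
-/

set_option linter.unusedSectionVars false

namespace Vale.Agent.P167.K8

open Finset Filter Topology
open Vale.Agent.P145.FB (PStep PConn)
open Vale.Agent.P152 (Edge Ori vw wt unroll)
open Vale.Agent.P167.A (Grid plane torus red redE plane_nx plane_hd plane_sg par_red e1_red e2_red
  e1s_red e2s_red nx_red)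
open Vale.Agent.P167.H685 (orbs orb unR fs bs sgb s_turn s_turn0 turn_cases shift orbs_conj
  mem_orb_iff mem_orbs eq_orb_of_mem orb_mem_orbs orbs_disjoint self_mem_orb nonempty_of_mem_orbs
  bx mem_bx redE_inj bs_hdv redE_surj redE_eq trE hd_red turn_red orb_image loop_unique injOn_bx)
open Vale.Agent.P167.FK (Ex Pr Bq eta0 eta1 PC DC cf Good LD Zq ia ib)

variable {θ : ℝ} {M L : ℕ} [NeZero M] [NeZero L] {B : Finset (ℤ × ℤ)} {R : ℤ}

theorem mem_Bq0 {v : ℤ × ℤ} : v ∈ Bq 0 R ↔ (-R ≤ v.1 ∧ v.1 < R) ∧ (-R ≤ v.2 ∧ v.2 < R) := by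
  unfold Bq
  simp

theorem red_inj (hR : 1 ≤ R) (hM : 2 * R + 6 ≤ M) (hL : 2 * R + 6 ≤ L) (hB : B ⊆ Bq 0 R) :
    Set.InjOn (red M L) (B : Set (ℤ × ℤ)) := by
  have h := injOn_bx (K := R.toNat) (M := M) (L := L) (by omega) (by omega)
  intro u hu v hv huv
  refine h ?_ ?_ huv
  · rw [mem_coe, mem_bx]
    have := mem_Bq0.1 (hB (mem_coe.1 hu))
    omega
  · rw [mem_coe, mem_bx]
    have := mem_Bq0.1 (hB (mem_coe.1 hv))
    omega

theorem redE_inj' (hR : 1 ≤ R) (hM : 2 * R + 6 ≤ M) (hL : 2 * R + 6 ≤ L) (hB : B ⊆ Bq 0 R)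
    {e e' : Ed} (he : hdv e ∈ B) (he' : hdv e' ∈ B) (h : redE M L e = redE M L e') : e = e' := by
  have key : ∀ e : Ed, hdv e ∈ B → bs e ∈ bx (R + 1).toNat := by
    intro e he
    have h1 := mem_Bq0.1 (hB he)
    have h2 := bs_hdv e
    rw [abs_le, abs_le] at h2
    rw [mem_bx]
    omega
  exact redE_inj (K := (R + 1).toNat) (by omega) (by omega) (key e he) (key e' he') h

theorem hdv_trE {a b : ℤ} (h : Even (a + b)) (e : Ed) :
    hdv (trE a b e) = ((hdv e).1 + a, (hdv e).2 + b) := by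
  have h1 : ∀ x y : ℤ, Even (x + a + (y + b)) ↔ Even (x + y) := by
    intro x y
    rw [show x + a + (y + b) = (x + y) + (a + b) by ring, Int.even_add]
    simp [h]
  rcases e with ⟨x, y⟩ | ⟨x, y⟩
  · by_cases h' : Even (x + y)
    · simp only [trE, Sum.map_inl, hdv, h1, h', if_true]
      ext <;> simp only <;> ring
    · simp only [trE, Sum.map_inl, hdv, h1, h', if_false]
  · by_cases h' : Even (x + y)
    · simp only [trE, Sum.map_inr, hdv, h1, h', if_true]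
    · simp only [trE, Sum.map_inr, hdv, h1, h', if_false]
      ext <;> simp only <;> ring

theorem redE_trE (a b : ℤ) (e : Ed) : redE M L (trE (M * a) (L * b) e) = redE M L e := by
  rcases e with v | v <;> simp [redE, trE, red]

/-- A lift of an edge with a given head. -/
theorem exists_lift (hM : Even M) (hL : Even L) {x : Edge (ZMod M × ZMod L)} {v : ℤ × ℤ}
    (h : (torus M L hM hL).hd x = red M L v) : ∃ e : Ed, redE M L e = x ∧ hdv e = v := by
  obtain ⟨e0, rfl⟩ := redE_surj x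
  rw [hd_red, plane_hd] at h
  have h1 : redE M L (Sum.inl (hdv e0)) = redE M L (Sum.inl v) := by
    simp only [redE, Sum.map_inl, h]
  obtain ⟨a, b, hab⟩ := redE_eq h1
  simp only [trE, Sum.map_inl, Sum.inl.injEq] at hab
  have hev : Even ((M : ℤ) * a + L * b) := by
    have e1 : Even ((M : ℤ) * a) := ((Int.even_coe_nat M).2 hM).mul_right _
    have e2 : Even ((L : ℤ) * b) := ((Int.even_coe_nat L).2 hL).mul_right _
    exact e1.add e2
  exact ⟨trE (M * a) (L * b) e0, redE_trE a b e0, by rw [hdv_trE hev, hab]⟩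

/-- The loops which visit `Dp`. -/
noncomputable def LDf (B : Finset (ℤ × ℤ)) (ω : Cfg) : Finset (Finset Ed) :=
  (FK.finite_LD (fin_good B ω) (Dp B ω)).toFinset

theorem mem_LDf {ω : Cfg} {ℓ : Finset Ed} :
    ℓ ∈ LDf B ω ↔ IsLoop (fin B ω) ℓ ∧ ∃ v ∈ vs ℓ, v ∈ Dp B ω := by
  unfold LDf
  rw [Set.Finite.mem_toFinset]
  rfl

theorem card_LDf (ω : Cfg) : (LDf B ω).card = LD (Dp B ω) (fin B ω) := by
  unfold LDf LD
  exact (Set.ncard_eq_toFinset_card _ (FK.finite_LD (fin_good B ω) (Dp B ω))).symm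

theorem LDf_spec {ω : Cfg} {ℓ : Finset Ed} (h : ℓ ∈ LDf B ω) :
    IsLoop ω ℓ ∧ (∀ e ∈ ℓ, Inn B ω (ls e)) ∧ vs ℓ ⊆ B := by
  obtain ⟨h1, v, hv, hD⟩ := mem_LDf.1 h
  obtain ⟨e, he, rfl⟩ := mem_image.1 hv
  exact inn_loop h1 he (inn_of_hdv hD)

/-- The orbits which see the domain `Dp` are the images of the loops which visit it. -/
theorem orbs_inner (B : Finset (ℤ × ℤ)) (hM : Even M) (hL : Even L) (ρ : ZMod M × ZMod L → Bool) :
    (orbs ((torus M L hM hL).nxP ρ)).filter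
      (fun O => ¬ ∀ e ∈ O, (torus M L hM hL).hd e ∉ (Dp B (unR ρ)).image (red M L)) =
    (LDf B (unR ρ)).image (fun ℓ => ℓ.image (redE M L)) := by
  ext O
  rw [mem_filter, mem_image]
  constructor
  · rintro ⟨hO, h⟩
    push Not at h
    obtain ⟨x, hx, hxD⟩ := h
    obtain ⟨v, hv, hvx⟩ := mem_image.1 hxD
    obtain ⟨e, rfl, rfl⟩ := exists_lift hM hL hvx.symm
    obtain ⟨ℓ, hℓ, heℓ⟩ := fin_good B (unR ρ) e
    have hmem : ℓ ∈ LDf B (unR ρ) :=
      mem_LDf.2 ⟨hℓ, _, mem_image_of_mem _ heℓ, hv⟩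
    refine ⟨ℓ, hmem, ?_⟩
    rw [eq_orb_of_mem hO hx, orb_image hM hL (LDf_spec hmem).1 heℓ]
  · rintro ⟨ℓ, hℓ, rfl⟩
    obtain ⟨h1, v, hv, hD⟩ := mem_LDf.1 hℓ
    obtain ⟨e, he, rfl⟩ := mem_image.1 hv
    refine ⟨?_, ?_⟩
    · rw [← orb_image hM hL (LDf_spec hℓ).1 he]
      exact orb_mem_orbs _
    · push Not
      refine ⟨redE M L e, mem_image_of_mem _ he, ?_⟩
      rw [hd_red, plane_hd]
      exact mem_image_of_mem _ hD

theorem image_inj (hR : 1 ≤ R) (hM6 : 2 * R + 6 ≤ M) (hL6 : 2 * R + 6 ≤ L) (hB : B ⊆ Bq 0 R)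
    {ω : Cfg} {ℓ ℓ' : Finset Ed} (h : ℓ ∈ LDf B ω) (h' : ℓ' ∈ LDf B ω)
    (he : ℓ.image (redE M L) = ℓ'.image (redE M L)) : ℓ = ℓ' := by
  obtain ⟨h1, h2, h3⟩ := LDf_spec h
  obtain ⟨h1', h2', h3'⟩ := LDf_spec h'
  obtain ⟨e, heℓ⟩ := h1.nonempty
  have h4 : redE M L e ∈ ℓ'.image (redE M L) := he ▸ mem_image_of_mem _ heℓ
  obtain ⟨e', he', hee⟩ := mem_image.1 h4
  have h5 : e' = e := redE_inj' hR hM6 hL6 hB (h3' (mem_image_of_mem _ he'))
    (h3 (mem_image_of_mem _ heℓ)) hee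
  rw [h5] at he'
  exact loop_unique h1 h1' heℓ he'

theorem fc_image (θ : ℝ) (hR : 1 ≤ R) (hM6 : 2 * R + 6 ≤ M) (hL6 : 2 * R + 6 ≤ L)
    (hB : B ⊆ Bq 0 R) (hM : Even M) (hL : Even L) (ρ : ZMod M × ZMod L → Bool) {ℓ : Finset Ed}
    (h : IsLoop (unR ρ) ℓ) (hv : vs ℓ ⊆ B) :
    fc θ (torus M L hM hL) 0 ρ (ℓ.image (redE M L)) = 2 * Real.cos θ := by
  rw [fc_zero, sum_image]
  · have h1 : ∑ e ∈ ℓ, (torus M L hM hL).turn ρ (redE M L e) = ∑ e ∈ ℓ, plane.turn (unR ρ) e :=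
      sum_congr rfl fun e _ => turn_red hM hL ρ e
    rw [h1]
    rcases s_turn (unR ρ) ℓ h with ⟨h2, _⟩ | ⟨h2, _⟩
    · rw [h2, cos4]
    · rw [h2, cosm4]
  · intro e he e' he' hee
    exact redE_inj' hR hM6 hL6 hB (hv (mem_image_of_mem _ he)) (hv (mem_image_of_mem _ he')) hee

/-- The product over the orbits which do not see the domain. -/
noncomputable def Co (θ : ℝ) (hM : Even M) (hL : Even L) (D : Finset (ℤ × ℤ))
    (ρ : ZMod M × ZMod L → Bool) : ℝ :=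
  ∏ O ∈ (orbs ((torus M L hM hL).nxP ρ)).filter
    (fun O => ∀ e ∈ O, (torus M L hM hL).hd e ∉ D.image (red M L)),
    fc θ (torus M L hM hL) 0 ρ O

theorem Co_congr (θ : ℝ) (hM : Even M) (hL : Even L) {D : Finset (ℤ × ℤ)}
    {ρ ρ' : ZMod M × ZMod L → Bool} (h : ∀ v, v ∉ D.image (red M L) → ρ v = ρ' v) :
    Co θ hM hL D ρ = Co θ hM hL D ρ' := by
  unfold Co
  rw [orbs_congr hM hL h]
  exact prod_congr rfl fun O hO => fc_congr θ _ fun e he => h _ ((mem_filter.1 hO).2 e he)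

theorem Co_nonneg (h0 : 0 ≤ θ) (h1 : θ ≤ Real.pi / 3) (hM : Even M) (hL : Even L)
    (D : Finset (ℤ × ℤ)) (ρ : ZMod M × ZMod L → Bool) : 0 ≤ Co θ hM hL D ρ :=
  prod_nonneg fun O hO => (fc_pos h0 (by linarith [Real.pi_pos]) hM hL ρ (mem_filter.1 hO).1).le

/-- The weight of the torus in terms of the inner clusters. -/
theorem wT_inner (θ : ℝ) (hR : 1 ≤ R) (hM6 : 2 * R + 6 ≤ M) (hL6 : 2 * R + 6 ≤ L)
    (hB : B ⊆ Bq 0 R) (hM : Even M) (hL : Even L) (ρ : ZMod M × ZMod L → Bool) :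
    wT θ M L ρ = Co θ hM hL (Dp B (unR ρ)) ρ *
      (2 * Real.cos θ) ^ LD (Dp B (unR ρ)) (fin B (unR ρ)) := by
  classical
  rw [wT_even θ hM hL, ← prod_filter_mul_prod_filter_not (orbs ((torus M L hM hL).nxP ρ))
    (fun O => ∀ e ∈ O, (torus M L hM hL).hd e ∉ (Dp B (unR ρ)).image (red M L)),
    orbs_inner B hM hL, prod_image, ← card_LDf]
  · unfold Co
    congr 1
    rw [prod_congr rfl fun ℓ hℓ => fc_image θ hR hM6 hL6 hB hM hL ρ (LDf_spec hℓ).1
      (LDf_spec hℓ).2.2, prod_const]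
  · intro ℓ h ℓ' h' he
    exact image_inj hR hM6 hL6 hB h h' he

/-! ### fibres -/

open Classical in
/-- Modification in the domain. -/
noncomputable def md (κ : ZMod M × ZMod L → Bool) (D S : Finset (ℤ × ℤ)) :
    ZMod M × ZMod L → Bool :=
  fun x => if x ∈ D.image (red M L) then decide (x ∈ S.image (red M L)) else κ x

/-- Close the squares of the domain of the inner clusters. -/
noncomputable def cl (B : Finset (ℤ × ℤ)) (ρ : ZMod M × ZMod L → Bool) :
    ZMod M × ZMod L → Bool := md ρ (Dp B (unR ρ)) ∅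

theorem md_out {κ : ZMod M × ZMod L → Bool} {D S : Finset (ℤ × ℤ)} {x : ZMod M × ZMod L}
    (h : x ∉ D.image (red M L)) : md κ D S x = κ x := by
  classical
  unfold md
  rw [if_neg h]

theorem md_in {κ : ZMod M × ZMod L → Bool} {D S : Finset (ℤ × ℤ)} {x : ZMod M × ZMod L}
    (h : x ∈ D.image (red M L)) : (md κ D S x = true ↔ x ∈ S.image (red M L)) := by
  classical
  unfold md
  rw [if_pos h]
  exact decide_eq_true_iff

theorem red_notMem (hi : Set.InjOn (red M L) (B : Set (ℤ × ℤ))) {D : Finset (ℤ × ℤ)} (hD : D ⊆ B)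
    {v : ℤ × ℤ} (hv : v ∈ B) (h : v ∉ D) : red M L v ∉ D.image (red M L) := by
  intro h'
  obtain ⟨u, hu, huv⟩ := mem_image.1 h'
  have := hi (mem_coe.2 (hD hu)) (mem_coe.2 hv) huv
  exact h (this ▸ hu)

/-- The domain of the inner clusters does not change. -/
theorem Dp_md (hi : Set.InjOn (red M L) (B : Set (ℤ × ℤ))) (κ : ZMod M × ZMod L → Bool)
    (S : Finset (ℤ × ℤ)) : Dp B (unR (md κ (Dp B (unR κ)) S)) = Dp B (unR κ) := by
  refine Dp_eq fun v hv hvD => ?_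
  show md κ (Dp B (unR κ)) S (red M L v) = κ (red M L v)
  exact md_out (red_notMem hi Dp_sub hv hvD)

theorem Dp_cl (hi : Set.InjOn (red M L) (B : Set (ℤ × ℤ))) (ρ : ZMod M × ZMod L → Bool) :
    Dp B (unR (cl B ρ)) = Dp B (unR ρ) := Dp_md hi ρ ∅

theorem cl_md (hi : Set.InjOn (red M L) (B : Set (ℤ × ℤ))) {κ : ZMod M × ZMod L → Bool}
    (hκ : cl B κ = κ) (S : Finset (ℤ × ℤ)) : cl B (md κ (Dp B (unR κ)) S) = κ := by
  have h1 := Dp_md hi κ S
  funext x
  unfold cl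
  rw [h1]
  by_cases hx : x ∈ (Dp B (unR κ)).image (red M L)
  · have h2 : md (md κ (Dp B (unR κ)) S) (Dp B (unR κ)) ∅ x = cl B κ x := by
      unfold cl md
      simp [hx]
    rw [h2, hκ]
  · rw [md_out hx, md_out hx]

theorem cl_cl (hi : Set.InjOn (red M L) (B : Set (ℤ × ℤ))) (ρ : ZMod M × ZMod L → Bool) :
    cl B (cl B ρ) = cl B ρ := by
  funext x
  by_cases hx : x ∈ (Dp B (unR ρ)).image (red M L)
  · have h1 := Dp_cl hi ρ
    unfold cl at h1 ⊢
    rw [h1]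
    simp [md, hx]
  · have h1 := Dp_cl hi ρ
    show md (cl B ρ) (Dp B (unR (cl B ρ))) ∅ x = _
    rw [h1, md_out hx]

/-- The sum over a fibre. -/
theorem sum_fibre (hi : Set.InjOn (red M L) (B : Set (ℤ × ℤ))) {κ : ZMod M × ZMod L → Bool}
    (hκ : cl B κ = κ) (f : (ZMod M × ZMod L → Bool) → ℝ) :
    ∑ ρ ∈ (univ : Finset (ZMod M × ZMod L → Bool)).filter (fun ρ => cl B ρ = κ), f ρ =
      ∑ S ∈ (Dp B (unR κ)).powerset, f (md κ (Dp B (unR κ)) S) := by
  classical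
  symm
  have hsub : (Dp B (unR κ)) ⊆ B := Dp_sub
  refine sum_nbij' (fun S => md κ (Dp B (unR κ)) S)
    (fun ρ => (Dp B (unR κ)).filter fun v => unR ρ v = true) ?_ ?_ ?_ ?_ ?_
  · intro S _
    rw [mem_filter]
    exact ⟨mem_univ _, cl_md hi hκ S⟩
  · intro ρ _
    rw [mem_powerset]
    exact filter_subset _ _
  · intro S hS
    rw [mem_powerset] at hS
    ext v
    rw [mem_filter]
    constructor
    · rintro ⟨h1, h2⟩
      have h3 : red M L v ∈ S.image (red M L) :=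
        (md_in (κ := κ) (mem_image_of_mem (red M L) h1)).1 h2
      obtain ⟨u, hu, huv⟩ := mem_image.1 h3
      have := hi (mem_coe.2 (hsub (hS hu))) (mem_coe.2 (hsub h1)) huv
      exact this ▸ hu
    · intro hv
      exact ⟨hS hv, (md_in (κ := κ) (mem_image_of_mem (red M L) (hS hv))).2
        (mem_image_of_mem _ hv)⟩
  · intro ρ hρ
    rw [mem_filter] at hρ
    have hD : Dp B (unR κ) = Dp B (unR ρ) := by
      rw [← hρ.2]
      exact Dp_cl hi ρ
    funext x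
    by_cases hx : x ∈ (Dp B (unR κ)).image (red M L)
    · obtain ⟨v, hv, rfl⟩ := mem_image.1 hx
      have h1 : (md κ (Dp B (unR κ)) ((Dp B (unR κ)).filter fun v => unR ρ v = true)
          (red M L v) = true ↔ ρ (red M L v) = true) := by
        rw [md_in hx]
        constructor
        · intro h
          obtain ⟨u, hu, huv⟩ := mem_image.1 h
          rw [← huv]
          exact (mem_filter.1 hu).2
        · intro h
          exact mem_image_of_mem _ (mem_filter.2 ⟨hv, h⟩)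
      exact Bool.eq_iff_iff.2 h1
    · rw [md_out hx, ← hρ.2]
      unfold cl
      rw [md_out]
      rwa [← hD]
  · intro S _
    rfl

theorem fin_md (hi : Set.InjOn (red M L) (B : Set (ℤ × ℤ))) {κ : ZMod M × ZMod L → Bool}
    {S : Finset (ℤ × ℤ)} (hS : S ⊆ Dp B (unR κ)) :
    fin B (unR (md κ (Dp B (unR κ)) S)) = cf (Dp B (unR κ)) eta0 S := by
  have h1 := Dp_md hi κ S
  rw [fin_eq (S := S) ?_, h1]
  intro v hv
  rw [h1] at hv
  show md κ (Dp B (unR κ)) S (red M L v) = true ↔ v ∈ S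
  rw [md_in (mem_image_of_mem _ hv)]
  constructor
  · intro h
    obtain ⟨u, hu, huv⟩ := mem_image.1 h
    have := hi (mem_coe.2 (Dp_sub (hS hu))) (mem_coe.2 (Dp_sub hv)) huv
    exact this ▸ hu
  · intro h
    exact mem_image_of_mem _ h

/-- K.5: the law of the inner clusters is a mixture of free measures. -/
theorem k_rb : K_rb := by
  classical
  intro θ h0 h1 R M L _ _ hR hM hL hM6 hL6 B hB F b hF hb
  have hi := red_inj hR hM6 hL6 hB
  have hQ : 0 < 2 * Real.cos θ := by linarith [one_le_two_cos h0 h1]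
  have hpos : 0 < ∑ ρ : ZMod M × ZMod L → Bool, wT θ M L ρ :=
    sum_pos (fun ρ _ => k_pos θ h0 (by linarith [Real.pi_pos]) M L ρ) univ_nonempty
  unfold ET
  rw [div_le_iff₀ hpos]
  have hmaps : ∀ ρ ∈ (univ : Finset (ZMod M × ZMod L → Bool)),
      cl B ρ ∈ (univ : Finset (ZMod M × ZMod L → Bool)).image (cl B) :=
    fun ρ hρ => mem_image_of_mem _ hρ
  rw [← sum_fiberwise_of_maps_to hmaps (fun ρ => wT θ M L ρ * F (fin B (unR ρ))),
    ← sum_fiberwise_of_maps_to hmaps (fun ρ => wT θ M L ρ), mul_sum]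
  refine sum_le_sum fun κ hκ => ?_
  obtain ⟨ρ0, _, rfl⟩ := mem_image.1 hκ
  set κ := cl B ρ0 with hκdef
  have hcl : cl B κ = κ := cl_cl hi ρ0
  rw [sum_fibre hi hcl, sum_fibre hi hcl]
  set D := Dp B (unR κ) with hD
  have hw : ∀ S ∈ D.powerset, wT θ M L (md κ D S) =
      Co θ hM hL D κ * (2 * Real.cos θ) ^ LD D (cf D eta0 S) := by
    intro S hS
    rw [mem_powerset] at hS
    have e1 := Dp_md hi κ S
    have e2 := fin_md hi hS
    rw [← hD] at e1 e2
    rw [wT_inner θ hR hM6 hL6 hB hM hL, e1, e2, Co_congr θ hM hL (ρ' := κ) fun v hv => md_out hv]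
  have hf : ∀ S ∈ D.powerset, wT θ M L (md κ D S) * F (fin B (unR (md κ D S))) =
      Co θ hM hL D κ * ((2 * Real.cos θ) ^ LD D (cf D eta0 S) * F (cf D eta0 S)) := by
    intro S hS
    have e2 := fin_md hi (mem_powerset.1 hS)
    rw [← hD] at e2
    rw [hw S hS, e2, mul_assoc]
  rw [sum_congr rfl hf, sum_congr rfl hw, ← mul_sum, ← mul_sum]
  have h3 := hb D Dp_sub
  unfold Ex at h3
  have hZ : 0 < Zq (2 * Real.cos θ) D eta0 :=
    sum_pos (fun _ _ => pow_pos hQ _) ⟨∅, by simp⟩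
  rw [div_le_iff₀ hZ] at h3
  calc _ ≤ Co θ hM hL D κ * (b * Zq (2 * Real.cos θ) D eta0) :=
        mul_le_mul_of_nonneg_left h3 (Co_nonneg h0 h1 hM hL D κ)
    _ = _ := by
        unfold Zq
        ring

end Vale.Agent.P167.K8
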